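import Vale.Agent.P352W.Net.Vn
import Vale.Agent.P352W.Net.Bic

/-!
# P352R, block L22: symmetric operators with a linear bound have commuting resolvents (helper22)
-/

set_option autoImplicit false
set_option linter.all false

noncomputable section

namespace Vale.Agent.P352R.L22

open UniformSpace (Completion)
open Complex (I)

variable {D : Type*} [NormedAddCommGroup D] [InnerProductSpace ℂ D]

/-- dense range -/
def Dn (S : D → D) : Prop :=
  ∀ z : Completion D, (∀ v, inner ℂ z ((S v : D) : Completion D) = 0) → z = 0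

theorem Dn.dr {S : Module.End ℂ D} (h : Dn S) :
    DenseRange fun v => ((S v : D) : Completion D) := by
  let e : D →ₗ[ℂ] Completion D := (Completion.toComplₗᵢ (𝕜 := ℂ)).toLinearMap.comp S
  have : (LinearMap.range e).topologicalClosure = ⊤ :=
    Submodule.topologicalClosure_eq_top_iff.2 ((Submodule.eq_bot_iff _).2 fun z hz =>
      h z fun v => (Submodule.mem_orthogonal' _ _).1 hz (e v) ⟨v, rfl⟩)
  have := Submodule.dense_iff_topologicalClosure_eq_top.2 this
  rwa [LinearMap.coe_range] at this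

theorem dn_id {z : Completion D} (h : ∀ v : D, inner ℂ z (v : Completion D) = 0) : z = 0 := by
  rw [← inner_self_eq_zero (𝕜 := ℂ)]
  exact Completion.induction_on (p := fun u => inner ℂ z u = 0) z
    (isClosed_eq (continuous_const.inner continuous_id) continuous_const) h

/-- symmetric operators -/
def Sy (A : D → D) : Prop := ∀ v w, inner ℂ (A v) w = inner ℂ v (A w)

/-- the shift by `l i` -/
def sh (A : Module.End ℂ D) (l : ℝ) : Module.End ℂ D := A + ((l : ℂ) * I) • 1

theorem sh_ap (A : Module.End ℂ D) (l : ℝ) (v : D) : sh A l v = A v + ((l : ℂ) * I) • v := rfl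

variable {P A C : Module.End ℂ D} {l m : ℝ} {R R' Y : Completion D →L[ℂ] Completion D}

theorem sh_adj (h : Sy A) (v w : D) : inner ℂ (sh A (-l) w) v = inner ℂ w (sh A l v) := by
  simp only [sh_ap, inner_add_left, inner_add_right, inner_smul_left, inner_smul_right, h w v]
  simp

theorem im_sh (h : Sy A) (x : D) : (inner ℂ x (sh A l x) : ℂ).im = l * ‖x‖ ^ 2 := by
  have a : (inner ℂ x (A x) : ℂ).im = 0 := by
    have := congrArg Complex.im ((inner_conj_symm (𝕜 := ℂ) (A x) x).trans (h x x))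
    rw [Complex.conj_im] at this
    linarith
  rw [sh_ap, inner_add_right, inner_smul_right, inner_self_eq_norm_sq_to_K, Complex.add_im, a]
  simp [← Complex.ofReal_pow]

/-- polynomial bounds -/
def Bk (P : Module.End ℂ D) (k : ℕ) (A : D → D) : Prop :=
  ∃ C : ℝ, 0 ≤ C ∧ ∀ v, ‖A v‖ ≤ C * ‖((1 - P) ^ k) v‖

/-- linear bounds for the operator and all commutators -/
def Gd (P A : Module.End ℂ D) : Prop := ∃ F : ℕ → Module.End ℂ D, F 0 = A ∧
  ∀ n, Bk P 1 (F n) ∧ ∀ v, P (F n v) = F n (P v) + F (n + 1) v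

/-- the generator -/
structure Gn (P : Module.End ℂ D) : Prop where
  anti : ∀ v w, inner ℂ (P v) w = -inner ℂ v (P w)
  dn : ∀ k, Dn ((1 + P) * (1 - P) ^ k : Module.End ℂ D)

variable {k : ℕ}

theorem ks (v : D) : ((1 - P) ^ (k + 1)) v = ((1 - P) ^ k) v - P (((1 - P) ^ k) v) := by
  rw [pow_succ']; rfl

theorem ks' (v : D) : ((1 - P) ^ (k + 1)) v = ((1 - P) ^ k) (v - P v) := by
  rw [pow_succ]; rfl

theorem Gn.le (h : Gn P) (v : D) : ‖v‖ ≤ ‖v - P v‖ := by
  have a : RCLike.re (inner ℂ v (P v) : ℂ) = 0 := by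
    have := congrArg Complex.re ((inner_conj_symm (𝕜 := ℂ) (P v) v).trans (h.anti v v))
    rw [Complex.conj_re, Complex.neg_re] at this
    show (inner ℂ v (P v) : ℂ).re = 0
    linarith
  have := norm_sub_sq (𝕜 := ℂ) v (P v)
  rw [a] at this
  exact abs_le_of_sq_le_sq' (by nlinarith [sq_nonneg ‖P v‖]) (norm_nonneg _) |>.2

theorem Bk.add {A C : D → D} (a : Bk P k A) (c : Bk P k C) : Bk P k fun v => A v + C v :=
  have ⟨x, p, q⟩ := a
  have ⟨y, r, s⟩ := c
  ⟨x + y, add_nonneg p r, fun v => (norm_add_le _ _).trans (by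
    rw [add_mul]; exact add_le_add (q v) (s v))⟩

theorem Bk.smul {A : D → D} (a : Bk P k A) (c : ℂ) : Bk P k fun v => c • A v :=
  have ⟨x, p, q⟩ := a
  ⟨‖c‖ * x, by positivity, fun v => by
    rw [norm_smul, mul_assoc]; exact mul_le_mul_of_nonneg_left (q v) (norm_nonneg _)⟩

theorem Gn.pw (h : Gn P) (v : D) : ‖v‖ ≤ ‖((1 - P) ^ k) v‖ := by
  induction k with
  | zero => exact le_rfl
  | succ k ih => rw [ks]; exact ih.trans (h.le _)

theorem Gn.bd (h : Gn P) : Bk P k fun v => v := ⟨1, zero_le_one, fun v => by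
  rw [one_mul]; exact h.pw v⟩

theorem Gd.add (a : Gd P A) (c : Gd P C) : Gd P (A + C) :=
  have ⟨F, a, b⟩ := a
  have ⟨G, c, d⟩ := c
  ⟨fun n => F n + G n, congrArg₂ (· + ·) a c, fun n => ⟨(b n).1.add (d n).1, fun v => by
    simp only [LinearMap.add_apply, map_add, (b n).2, (d n).2]; abel⟩⟩

theorem Gd.smul (a : Gd P A) (c : ℂ) : Gd P (c • A) :=
  have ⟨F, a, b⟩ := a
  ⟨fun n => c • F n, congrArg (c • ·) a, fun n => ⟨(b n).1.smul c, fun v => by
    simp only [LinearMap.smul_apply, map_smul, (b n).2, smul_add]⟩⟩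

theorem Gd.bd (a : Gd P A) : Bk P 1 A :=
  have ⟨F, a, b⟩ := a
  a ▸ (b 0).1

theorem Gd.bd' (a : Gd P A) : ∃ C : ℝ, 0 ≤ C ∧ ∀ v, ‖A v‖ ≤ C * ‖v - P v‖ := by
  obtain ⟨C, p, q⟩ := a.bd
  exact ⟨C, p, fun v => by simpa using q v⟩

theorem Gd.nx (a : Gd P A) : ∃ A1, Gd P A1 ∧ ∀ v, P (A v) = A (P v) + A1 v :=
  have ⟨F, a, b⟩ := a
  ⟨F 1, ⟨fun n => F (n + 1), rfl, fun n => b (n + 1)⟩, a ▸ (b 0).2⟩

theorem kc (h : Gn P) (g : Gd P A) :
    Bk P k fun v => ((1 - P) ^ k) (A v) - A (((1 - P) ^ k) v) := by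
  induction k generalizing A with
  | zero => exact ⟨0, le_rfl, fun v => by simp⟩
  | succ k ih =>
    obtain ⟨A1, g1, e⟩ := g.nx
    obtain ⟨a, a0, a1⟩ := ih g
    obtain ⟨b, b0, b1⟩ := ih g1
    obtain ⟨c, c0, c1⟩ := g1.bd'
    refine ⟨a + b + c, by positivity, fun v => ?_⟩
    have e1 : ((1 - P) ^ (k + 1)) (A v) - A (((1 - P) ^ (k + 1)) v) =
        (((1 - P) ^ k) (A (v - P v)) - A (((1 - P) ^ k) (v - P v))) -
          ((((1 - P) ^ k) (A1 v) - A1 (((1 - P) ^ k) v)) + A1 (((1 - P) ^ k) v)) := by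
      rw [ks', ks', e, map_sub A v]
      simp only [map_sub, map_add]
      abel
    have x1 := a1 (v - P v)
    have x2 := (b1 v).trans (mul_le_mul_of_nonneg_left (h.le _) b0)
    have x3 := c1 (((1 - P) ^ k) v)
    rw [← ks'] at x1
    rw [← ks] at x2 x3
    beta_reduce at x1 x2 ⊢
    rw [e1]
    refine (norm_sub_le _ _).trans ((add_le_add le_rfl (norm_add_le _ _)).trans ?_)
    linarith

theorem core (h : Gn P) (s : Sy A) (g : Gd P A) (k : ℕ) :
    ∃ l0 : ℝ, 0 < l0 ∧ ∀ l : ℝ, |l| = l0 → Dn ((1 - P) ^ k * sh A l : Module.End ℂ D) := by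
  obtain ⟨c0, p0, b0⟩ := g.bd'
  obtain ⟨c1, p1, b1⟩ := kc (k := k) h g
  obtain ⟨c2, p2, b2⟩ := kc (k := k + 1) h g
  refine ⟨c2 + 1, by positivity, fun l hl z hz => dn_id fun w => ?_⟩
  have ad (x y : D) : inner ℂ (x + P x) y = inner ℂ x (y - P y) := by
    rw [inner_add_left, inner_sub_right, h.anti, sub_eq_add_neg]
  have key : ‖inner ℂ z (w : Completion D)‖ ≤ (c0 + |l| + c1) * ‖z - z‖ * ‖w - P w‖ := by
    refine (h.dn (k + 1)).dr.induction_on (p := fun u => ‖inner ℂ u (w : Completion D)‖ ≤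
      (c0 + |l| + c1) * ‖u - z‖ * ‖w - P w‖) z (isClosed_le (by fun_prop) (by fun_prop)) fun v => ?_
    have hv := hz v
    have n1 := b1 v
    have n2 := b2 v
    have n0 := b0 (((1 - P) ^ k) v)
    have kx := h.le (((1 - P) ^ k) v)
    rw [← ks] at n0 kx
    obtain ⟨y, hy⟩ : ∃ y, y = ((1 - P) ^ k * sh A l : Module.End ℂ D) v := ⟨_, rfl⟩
    have ey : y = (((1 - P) ^ k) (A v) - A (((1 - P) ^ k) v)) + (A (((1 - P) ^ k) v) +
        ((l : ℂ) * I) • ((1 - P) ^ k) v) := by
      rw [hy, Module.End.mul_apply, sh_ap, map_add, map_smul]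
      abel
    have ek : sh A l (((1 - P) ^ (k + 1)) v) = y - P y -
        (((1 - P) ^ (k + 1)) (A v) - A (((1 - P) ^ (k + 1)) v)) := by
      rw [hy, Module.End.mul_apply, ← ks, sh_ap, sh_ap, map_add, map_smul]
      abel
    rw [← hy] at hv
    show ‖inner ℂ ((((1 - P) ^ (k + 1)) v + P (((1 - P) ^ (k + 1)) v) : D) : Completion D)
      (w : Completion D)‖ ≤ _ * ‖((((1 - P) ^ (k + 1)) v + P (((1 - P) ^ (k + 1)) v) : D) :
        Completion D) - z‖ * _
    beta_reduce at n1 n2
    generalize ((1 - P) ^ (k + 1)) v = x at *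
    generalize ((1 - P) ^ (k + 1)) (A v) - A x = r at *
    generalize ((1 - P) ^ k) v = j at *
    generalize ((1 - P) ^ k) (A v) - A j = r' at *
    rw [Completion.inner_coe, ad]
    have ny : ‖y‖ ≤ (c0 + |l| + c1) * ‖x‖ := by
      have : ‖((l : ℂ) * I) • j‖ ≤ |l| * ‖x‖ := by
        rw [norm_smul, norm_mul, Complex.norm_I, mul_one, Complex.norm_real, Real.norm_eq_abs]
        exact mul_le_mul_of_nonneg_left kx (abs_nonneg l)
      have a := norm_add_le r' (A j + ((l : ℂ) * I) • j)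
      have b := norm_add_le (A j) (((l : ℂ) * I) • j)
      have c := mul_le_mul_of_nonneg_left kx p1
      rw [← ey] at a
      linarith
    have i1 : ‖inner ℂ x (y - P y)‖ ≤ ‖((x + P x : D) : Completion D) - z‖ * ‖y‖ := by
      have := norm_inner_le_norm (𝕜 := ℂ) (((x + P x : D) : Completion D) - z) (y : Completion D)
      rwa [inner_sub_left, hv, sub_zero, Completion.inner_coe, ad, Completion.norm_coe] at this
    have i2 : |l| * ‖x‖ ^ 2 ≤ ‖inner ℂ x (y - P y)‖ + ‖x‖ * ‖r‖ := by
      have b := Complex.abs_im_le_norm (inner ℂ x (sh A l x))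
      rw [im_sh s, abs_mul, abs_of_nonneg (sq_nonneg ‖x‖), ek, inner_sub_right] at b
      exact b.trans ((norm_sub_le _ _).trans (add_le_add le_rfl (norm_inner_le_norm _ _)))
    obtain ⟨d, hd⟩ : ∃ d, d = ‖((x + P x : D) : Completion D) - z‖ := ⟨_, rfl⟩
    have d0 : 0 ≤ d := hd ▸ norm_nonneg _
    rw [← hd] at i1 ⊢
    have x0 := norm_nonneg x
    have nx : ‖x‖ ≤ (c0 + |l| + c1) * d := by
      rcases x0.eq_or_lt with e | e
      · rw [← e]; positivity
      refine le_of_mul_le_mul_left ?_ e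
      have a := mul_le_mul_of_nonneg_left ny d0
      have b := mul_le_mul_of_nonneg_left n2 x0
      rw [hl] at i2
      nlinarith
    exact (norm_inner_le_norm _ _).trans (mul_le_mul_of_nonneg_right nx (norm_nonneg _))
  simpa using key

theorem van {S : Module.End ℂ D} (h : Dn ((1 - P) ^ k * S : Module.End ℂ D)) {φ : D → ℂ} {c : ℝ}
    (b : ∀ v, ‖φ v‖ ≤ c * ‖((1 - P) ^ k) v‖) (z : ∀ w v, φ (w - S v) = φ w) (w : D) : φ w = 0 := by
  have key : ‖φ w‖ ≤ c * ‖((((1 - P) ^ k) w : D) : Completion D) - (((1 - P) ^ k) w : D)‖ := by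
    refine h.dr.induction_on (p := fun u => ‖φ w‖ ≤
      c * ‖((((1 - P) ^ k) w : D) : Completion D) - u‖) _
      (isClosed_le (by fun_prop) (by fun_prop)) fun v => ?_
    rw [← z w v, ← Completion.coe_sub, Completion.norm_coe, Module.End.mul_apply, ← map_sub]
    exact b _
  simpa using key

theorem comp {S T : Module.End ℂ D} (h : Dn ((1 - P) ^ k * S : Module.End ℂ D)) (b : Bk P k T)
    (t : Dn T) : Dn (T * S : Module.End ℂ D) := fun z hz => t z fun w => by
  obtain ⟨c, -, b⟩ := b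
  refine van h (φ := fun w => inner ℂ z ((T w : D) : Completion D)) (c := ‖z‖ * c)
    (fun v => (norm_inner_le_norm _ _).trans ?_) (fun w v => ?_) w
  · rw [Completion.norm_coe, mul_assoc]
    exact mul_le_mul_of_nonneg_left (b v) (norm_nonneg _)
  · rw [map_sub, Completion.coe_sub, inner_sub_right]
    exact (congrArg _ (hz v)).trans (sub_zero _)

/-- resolvents -/
def Rs (A : Module.End ℂ D) (l : ℝ) (R : Completion D →L[ℂ] Completion D) : Prop :=
  Dn (sh A l) ∧ Dn (sh A (-l)) ∧ ∀ v, R (sh A l v : D) = v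

theorem Rs.inn (h : Rs A l R) (s : Sy A) (x : Completion D) (w : D) :
    inner ℂ ((sh A (-l) w : D) : Completion D) (R x) = inner ℂ (w : Completion D) x :=
  h.1.dr.induction_on (p := fun x => inner ℂ ((sh A (-l) w : D) : Completion D) (R x) =
    inner ℂ (w : Completion D) x) x (isClosed_eq (by fun_prop) (by fun_prop)) fun v => by
      rw [h.2.2, Completion.inner_coe, Completion.inner_coe, sh_adj s]

theorem Rs.star (h : Rs A l R) (s : Sy A) : Rs A (-l) (star R) :=
  ⟨h.2.1, by rw [neg_neg]; exact h.1, fun v => ext_inner_right ℂ fun x => by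
    rw [ContinuousLinearMap.star_eq_adjoint, ContinuousLinearMap.adjoint_inner_left, h.inn s]⟩

/-- weak commutation -/
def Wk (A : D → D) (Y : Completion D →L[ℂ] Completion D) : Prop := ∀ v w : D,
  inner ℂ ((A w : D) : Completion D) (Y v) = inner ℂ (w : Completion D) (Y (A v : D))

theorem wk_iff : Wk A Y ↔ ∀ v w : D, inner ℂ ((sh A (-l) w : D) : Completion D) (Y v) =
    inner ℂ (w : Completion D) (Y (sh A l v : D)) := by
  refine forall₂_congr fun v w => ?_
  simp only [sh_ap, Completion.coe_add, Completion.coe_smul, map_add, map_smul, inner_add_left,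
    inner_add_right, inner_smul_left, inner_smul_right]
  simp

theorem Rs.wk (h : Rs A l R) (s : Sy A) (c : R * Y = Y * R) : Wk A Y :=
  (wk_iff (l := l)).2 fun v w => by
    rw [← h.inn s (Y _) w, show R (Y (sh A l v : D)) = Y (R (sh A l v : D)) from DFunLike.congr_fun c _,
      h.2.2]

theorem ext_dn {S : Module.End ℂ D} (h : Dn S) {X Y : Completion D →L[ℂ] Completion D}
    (e : ∀ v, X (S v : D) = Y (S v : D)) : X = Y := ContinuousLinearMap.ext fun z =>
  h.dr.induction_on (p := fun z => X z = Y z) z (isClosed_eq X.continuous Y.continuous) e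

theorem Rs.cm (h : Rs A l R) (s : Sy A) (c : Wk A Y) : R * Y = Y * R :=
  ext_dn h.1 fun v => by
    rw [ContinuousLinearMap.mul_apply, ContinuousLinearMap.mul_apply, h.2.2, ← sub_eq_zero]
    refine h.2.1 _ fun w => ?_
    rw [← inner_conj_symm, inner_sub_right, h.inn s, wk_iff.1 c, sub_self, map_zero]

theorem ex_res (h : Gn P) (s : Sy A) (g : Gd P A) (n : ℕ) :
    ∃ l R, Rs A l R ∧ Dn ((1 - P) ^ n * sh A l : Module.End ℂ D) ∧
      Dn ((1 - P) ^ n * sh A (-l) : Module.End ℂ D) := by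
  obtain ⟨l, p, k⟩ := core h s g n
  have d (m : ℝ) (e : |m| = l) : Dn (sh A m) := by
    have := comp (T := 1) (k m e) h.bd fun z a => dn_id a
    rwa [one_mul] at this
  have a := abs_of_pos p
  let i : D →ₗ[ℂ] Completion D := (Completion.toComplₗᵢ (𝕜 := ℂ)).toLinearMap
  refine ⟨l, i.extendOfNorm (i.comp (sh A l)), ⟨d l a, d _ (by rw [abs_neg, a]), fun v =>
    LinearMap.extendOfNorm_eq (f := i) (e := i.comp (sh A l)) (d l a).dr ⟨l⁻¹, fun x => ?_⟩ v⟩,
    k l a, k _ (by rw [abs_neg, a])⟩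
  show ‖(x : Completion D)‖ ≤ l⁻¹ * ‖((sh A l x : D) : Completion D)‖
  rw [Completion.norm_coe, Completion.norm_coe, le_inv_mul_iff₀ p]
  have b := (le_abs_self _).trans ((Complex.abs_im_le_norm (inner ℂ x (sh A l x))).trans
    (norm_inner_le_norm _ _))
  rw [im_sh s] at b
  rcases (norm_nonneg x).eq_or_lt with e | e
  · rw [← e, mul_zero]; exact norm_nonneg _
  · exact le_of_mul_le_mul_left (by nlinarith) e

/-- **the resolvents commute** -/
theorem comm (h : Gn P) (b : Bk P 1 A) (s : Sy C) (g : Gd P C) (c : ∀ v, A (C v) = C (A v))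
    (r : Rs A l R) (r' : Rs C m R') : R' * R = R * R' := by
  obtain ⟨n, T, t, d, -⟩ := ex_res h s g 1
  refine r'.cm s (t.wk s (ext_dn (comp d (b.add (h.bd.smul _)) r.1) fun v => ?_))
  have e : (sh A l * sh C n) v = sh C n (sh A l v) := by
    simp only [Module.End.mul_apply, sh_ap, map_add, map_smul, c, smul_add, smul_comm ((l : ℂ) * I)]
    abel
  show T (R (sh A l (sh C n v) : D)) = R (T ((sh A l * sh C n) v : D))
  rw [e, r.2.2, t.2.2, t.2.2, r.2.2]

/-- transforms of resolvents -/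
theorem Rs.conj (h : Rs A l R) {u : D → D} {U U' : Completion D →L[ℂ] Completion D}
    (o : Function.Surjective u) (e : ∀ v : D, U v = u v) (i : U' * U = 1)
    (c : ∀ v, C (u v) = u (A v)) : Rs C l (U * R * U') := by
  have k (m : ℝ) (v : D) : ((sh C m (u v) : D) : Completion D) = U (sh A m v : D) := by
    simp only [sh_ap, Completion.coe_add, Completion.coe_smul, map_add, map_smul, e, c]
  have d (m : ℝ) (a : Dn (sh A m)) : Dn (sh C m) := fun z hz => dn_id fun v => by
    obtain ⟨v, rfl⟩ := o v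
    rw [← e, ← ContinuousLinearMap.adjoint_inner_left, a (ContinuousLinearMap.adjoint U z)
      fun w => by rw [ContinuousLinearMap.adjoint_inner_left, ← k, hz], inner_zero_left]
  refine ⟨d _ h.1, d _ h.2.1, fun v => ?_⟩
  obtain ⟨v, rfl⟩ := o v
  rw [k, ← ContinuousLinearMap.mul_apply, mul_assoc, i, mul_one, ContinuousLinearMap.mul_apply,
    h.2.2, e]

/-- the adjoint of `Y` preserves the graph of the adjoint of `X` -/
def St (X : D → D) (Y : Completion D →L[ℂ] Completion D) : Prop := ∀ a b : Completion D,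
  (∀ u : D, inner ℂ a (u : Completion D) = inner ℂ b ((X u : D) : Completion D)) →
    ∀ u : D, inner ℂ a (Y u) = inner ℂ b (Y (X u : D))

theorem St.mul {X : D → D} {Y Z : Completion D →L[ℂ] Completion D} (y : St X Y) (z : St X Z) :
    St X (Y * Z) := fun a b h u => by
  have := z (ContinuousLinearMap.adjoint Y a) (ContinuousLinearMap.adjoint Y b) (fun u => by
    rw [ContinuousLinearMap.adjoint_inner_left, ContinuousLinearMap.adjoint_inner_left, y a b h]) u
  rwa [ContinuousLinearMap.adjoint_inner_left, ContinuousLinearMap.adjoint_inner_left] at this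

theorem Rs.st (h : Gn P) (r : Rs A l R) (d : Dn ((1 - P) ^ k * sh A l : Module.End ℂ D))
    (b : Bk P k C) (c : ∀ v, A (C v) = C (A v)) : St C R := fun x y e u => by
  obtain ⟨n, n0, b⟩ := b
  rw [← sub_eq_zero]
  refine van d (φ := fun u => inner ℂ x (R u) - inner ℂ y (R (C u : D)))
    (c := ‖x‖ * ‖R‖ + ‖y‖ * ‖R‖ * n) (fun v => (norm_sub_le _ _).trans ?_) (fun w v => ?_) u
  · have t (z : Completion D) (q : D) : ‖inner ℂ z (R q)‖ ≤ ‖z‖ * ‖R‖ * ‖q‖ :=
      (norm_inner_le_norm _ _).trans (by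
        rw [mul_assoc, ← Completion.norm_coe q]
        exact mul_le_mul_of_nonneg_left (R.le_opNorm _) (norm_nonneg _))
    rw [add_mul, mul_assoc _ n]
    exact add_le_add ((t x v).trans (mul_le_mul_of_nonneg_left (h.pw v) (by positivity)))
      ((t y _).trans (mul_le_mul_of_nonneg_left (b v) (by positivity)))
  · have q : C (sh A l v) = sh A l (C v) := by simp only [sh_ap, map_add, map_smul, c]
    simp only [map_sub, Completion.coe_sub, inner_sub_right, q, r.2.2, e v]
    ring

open P352W.Net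

/-- the resolvents of a set of operators -/
def RR (S : Module.End ℂ D → Prop) : Set (Completion D →L[ℂ] Completion D) :=
  {R | ∃ A l, S A ∧ Rs A l R}

variable {S : Module.End ℂ D → Prop}

theorem rr_star (s : ∀ A, S A → Sy A) : ∀ g ∈ RR S, star g ∈ RR S :=
  fun _ ⟨A, l, a, r⟩ => ⟨A, -l, a, r.star (s A a)⟩

/-- **polynomially bounded operators that commute with `S` commute weakly with the algebra** -/
theorem aff (h : Gn P) (s : ∀ A, S A → Sy A ∧ Gd P A) (b : Bk P k C) {C' : D → D}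
    (ad : ∀ v w, inner ℂ (C v) w = inner ℂ v (C' w)) (c : ∀ A, S A → ∀ v, A (C v) = C (A v))
    (y : Y ∈ vn (RR S)) (v w : D) : inner ℂ ((C' w : D) : Completion D) (Y v) =
      inner ℂ (w : Completion D) (Y (C v : D)) := by
  refine bic2 {Y | St C Y ∧ St C (star Y)} ⟨fun a b h => h, by rw [star_one]; exact fun a b h => h⟩
    (fun a x b y => ⟨x.1.mul y.1, by rw [star_mul]; exact y.2.mul x.2⟩)
    (fun a x => ⟨x.2, by rw [star_star]; exact x.1⟩) (fun Z hZ => mem_vn.1 y Z
      ((mem_cmt (rr_star fun A a => (s A a).1)).2 ?_)) fun a x => x.1 _ _ (fun u => ?_) v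
  · rintro g ⟨A, l, a, r⟩
    obtain ⟨n, T, t, d, d'⟩ := ex_res h (s A a).1 (s A a).2 k
    exact r.cm (s A a).1 (t.wk (s A a).1
      (hZ T ⟨t.st h d b (c A a), (t.star (s A a).1).st h d' b (c A a)⟩))
  · rw [Completion.inner_coe, Completion.inner_coe, ← inner_conj_symm, ← ad, inner_conj_symm]

/-- one step of the density argument -/
theorem step {U : ℝ → D → D} (nU : ∀ t v, ‖U t v‖ = ‖v‖) (ad : ∀ s t v, U s (U t v) = U (s + t) v)
    (z0 : ∀ v, U 0 v = v) (der : ∀ v, HasDerivAt (fun t => ((U t v : D) : Completion D))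
      ((P v : D) : Completion D) 0) {E : D → D} (cm : ∀ t v, U t (E v) = E (U t v)) {ε : ℝ}
    (e : ε * ε = 1) {z : Completion D}
    (hz : ∀ v, inner ℂ z ((E v + (ε : ℂ) • P (E v) : D) : Completion D) = 0) (v : D) :
    inner ℂ z ((E v : D) : Completion D) = 0 := by
  have d (t : ℝ) : HasDerivAt (fun t : ℝ => ((Real.exp (ε * t) : ℝ) : ℂ) *
      inner ℂ z ((U t (E v) : D) : Completion D)) 0 t := by
    have a := HasDerivAt.comp_sub_const t t ((sub_self t).symm ▸ der (U t (E v)))
    simp only [ad, sub_add_cancel] at a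
    have b := (((hasDerivAt_id t).const_mul ε).exp.ofReal_comp).mul
      ((hasDerivAt_const t z).inner ℂ a)
    refine b.congr_deriv ?_
    have c := hz (U t v)
    rw [← cm, Completion.coe_add, Completion.coe_smul, inner_add_right, inner_smul_right] at c
    have e' : (ε : ℂ) * ε = 1 := by exact_mod_cast e
    simp only [id, mul_one, inner_zero_left, add_zero, Complex.ofReal_mul]
    linear_combination (((Real.exp (ε * t) : ℝ) : ℂ) * ε) * c - (((Real.exp (ε * t) : ℝ) : ℂ) *
      inner ℂ z ((P (U t (E v)) : D) : Completion D)) * e'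
  have k := is_const_of_deriv_eq_zero (fun t => (d t).differentiableAt) (fun t => (d t).deriv) 0
  rw [← norm_le_zero_iff]
  refine ge_of_tendsto' (by simpa using
    Real.tendsto_exp_neg_atTop_nhds_zero.mul_const (‖z‖ * ‖E v‖)) fun s => ?_
  have := k (-(ε * s))
  rw [z0, mul_zero, Real.exp_zero, Complex.ofReal_one, one_mul, mul_neg, ← mul_assoc, e,
    one_mul] at this
  rw [this, norm_mul, Complex.norm_real, Real.norm_eq_abs, abs_of_pos (Real.exp_pos _)]
  refine mul_le_mul_of_nonneg_left ((norm_inner_le_norm _ _).trans_eq ?_) (Real.exp_pos _).le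
  rw [Completion.norm_coe, nU]

theorem gn_of {U : ℝ → D → D} (nU : ∀ t v, ‖U t v‖ = ‖v‖) (ad : ∀ s t v, U s (U t v) = U (s + t) v)
    (z0 : ∀ v, U 0 v = v) (der : ∀ v, HasDerivAt (fun t => ((U t v : D) : Completion D))
      ((P v : D) : Completion D) 0) (cm : ∀ t v, U t (v - P v) = U t v - P (U t v))
    (an : ∀ v w, inner ℂ (P v) w = -inner ℂ v (P w)) : Gn P := by
  have c (k : ℕ) (t) (v) : U t (((1 - P) ^ k) v) = ((1 - P) ^ k) (U t v) := by
    induction k with
    | zero => rfl
    | succ k ih => rw [ks, ks, cm, ih]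
  have d (k : ℕ) : Dn ((1 - P) ^ k : Module.End ℂ D) := by
    induction k with
    | zero => exact fun z a => dn_id a
    | succ k ih =>
      exact fun z a => ih z (step nU ad z0 der (c k) (ε := -1) (by norm_num) fun v => by
        have := a v
        rw [ks] at this
        simpa only [Complex.ofReal_neg, Complex.ofReal_one, neg_smul, one_smul,
          ← sub_eq_add_neg] using this)
  exact ⟨an, fun k z a => d k z (step nU ad z0 der (c k) (ε := 1) (by norm_num) fun v => by
    rw [Complex.ofReal_one, one_smul]; exact a v)⟩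

/-- an operator with an adjoint is linear -/
def lin (X X' : D → D) (h : ∀ v w, inner ℂ (X v) w = inner ℂ v (X' w)) : Module.End ℂ D where
  toFun := X
  map_add' v w := ext_inner_right ℂ fun z => by rw [h, inner_add_left, inner_add_left, h, h]
  map_smul' c v := ext_inner_right ℂ fun z => by rw [h, inner_smul_left, inner_smul_left, h]; rfl

end Vale.Agent.P352R.L22
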