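import Vale.Agent.P352R.Pub
import Vale.Agent.P352R.Cf.Pub

namespace Vale.Agent.P352R.P

open P352.GF

variable {D : Type*} [NormedAddCommGroup D] [InnerProductSpace ℂ D]

/-- The operator `X` is bounded by the `k`-th power of the energy: `‖X v‖ ≤ C ‖(1 - i H)^k v‖`,
where `H` is the generator of the time translations. -/
def Eb (A : (V → V) → D → D) (k : ℕ) (X : D → D) : Prop :=
  ∃ C : ℝ, ∀ v, ‖X v‖ ≤ C * ‖(fun w => w - Complex.I • A (fun _ => bas o 1) w)^[k] v‖

/-- **Energy bounds.** All smeared fields of `Q` are bounded by powers of the energy, and `Q`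
contains a theory `R` (same vacuum, which is cyclic for the fields of `R`, and same representation)
with countably many covariant Bose fields that are bounded linearly by the energy. -/
structure EnB (Q R : Theory D) (A : (V → V) → D → D) : Prop extends Rep Q A where
  sub : IsEnl R Q
  cnt : CntF R
  bose : ∀ B, R.fld B → R.bose B
  lin : ∀ B f, R.fld B → In Set.univ f → Eb A 1 (B f)
  pol : ∀ B f, Q.fld B → In Set.univ f → ∃ k, Eb A k (B f)

end Vale.Agent.P352R.P
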