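import Vale.Agent.P352R.L22.Ab
import Vale.Agent.P352R.L22.Pub
import Vale.Agent.P352R.L1.Net
import Vale.Agent.P352R.Cf.All
import Vale.Agent.P352X.EB.WB
import Vale.Agent.P352X.Api2d
import Vale.Agent.P352H.Tfg
import Vale.Agent.P352.BW.H268.Tra

/-!
# P352R, block L22: energy bounds give a local algebra (helper22)
-/

set_option autoImplicit false
set_option linter.all false

noncomputable section

namespace Vale.Agent.P352R.L22

open Vale.Agent.P352 Vale.Agent.P352.GF Vale.Agent.P352.BW Vale.Agent.P352W.Net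
open Vale.Agent.P352.H246 Vale.Agent.P352.H15 Vale.Agent.P352X
open Vale.Agent.P352X.EB.Wb (der Dv_U Dv_fld)
open UniformSpace (Completion)
open Complex (I)

variable {D : Type*} [NormedAddCommGroup D] [InnerProductSpace ℂ D] {Q R : Theory D}
  {A : (V → V) → D → D} {O S : Set V} {B B' : Fld D} {f : Fn} {X : Module.End ℂ D}

theorem U0 (u : D) : U1 R ((0 : ℝ) • eb o) u = u := by rw [zero_smul]; exact H755.Uone u

theorem anti (h : Rep R A) (v w : D) : inner ℂ (Dv R o v) w = inner ℂ v (-Dv R o w) := by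
  have a := (der h o v).inner ℂ (der h o w)
  simp only [U1_inner, U0] at a
  have := a.unique (hasDerivAt_const _ _)
  rw [inner_neg_right]
  linear_combination this

/-- the generator of the time translations -/
def PP (h : Rep R A) : Module.End ℂ D := lin (Dv R o) (fun w => -Dv R o w) (anti h)

theorem gn (h : Rep R A) : Gn (PP h) :=
  gn_of (U := fun t => U1 R (t • eb o)) (fun _ _ => U1_norm _ _)
    (fun s t v => by rw [H496.U1_U1_all, add_smul]) U0 (fun v => JB.coe_der (der h o v))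
    (fun t v => by rw [U1_sub]; exact congrArg _ (Dv_U h o _ v).symm)
    fun v w => (anti h v w).trans (inner_neg_right _ _)

theorem bk (h : Rep R A) {k : ℕ} {X : D → D} (e : P.Eb A k X) : Bk (PP h) k X := by
  obtain ⟨C, c⟩ := e
  have : (fun w => w - I • A (fun _ => bas o 1) w) = (1 - PP h : Module.End ℂ D) := funext fun v =>
    congrArg (v - ·) (h.der (fun _ => 1) (fun _ => GF.one) (fun t => bas o t) (fun _ => bas o 1) v
      rfl rfl (by funext n; simp [bas]) (fun _ => ⟨one_pos, isLor_one⟩) fun n x => by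
        simp only [sim, bas]
        split_ifs
        · exact (hasDerivAt_id _).add_const _
        · exact hasDerivAt_const _ _).deriv.symm
  refine ⟨|C|, abs_nonneg C, fun v => (c v).trans ?_⟩
  rw [this, ← Module.End.pow_apply]
  exact mul_le_mul_of_nonneg_right (le_abs_self C) (norm_nonneg _)

theorem adj' (ad : P.IsAdj B B') : P.IsAdj B' B := fun f v w hf => by
  rw [← inner_conj_symm, ← inner_conj_symm v, ad (bar f) w v (isTest_bar hf), bar_bar]

/-- the linear energy bounds -/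
def LB (R : Theory D) (A : (V → V) → D → D) : Prop :=
  ∀ B f, R.fld B → P.In Set.univ f → P.Eb A 1 (B f)

theorem gd_f (h : Rep R A) (l : LB R A) (hB : R.fld B) (ad : P.IsAdj B B') (hf : P.In S f) :
    Gd (PP h) (lin (B f) _ fun v w => ad f v w hf.1) := by
  have t (n : ℕ) : P.In Set.univ ((pd o)^[n] f) := by
    induction n with
    | zero => exact Ap.in_univ' hf
    | succ n ih => rw [Function.iterate_succ_apply']; exact Ap.in_pd o ih
  refine ⟨fun n => ((-1 : ℂ) ^ n) • lin (B ((pd o)^[n] f)) _ fun v w => ad _ v w (t n).1, ?_,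
    fun n => ⟨(bk h (l B _ hB (t n))).smul _, fun v => ?_⟩⟩
  · exact LinearMap.ext fun v => one_smul _ _
  · show PP h ((-1 : ℂ) ^ n • B _ v) = (-1 : ℂ) ^ n • B _ (Dv R o v) + (-1 : ℂ) ^ (n + 1) • B _ v
    rw [map_smul, Function.iterate_succ_apply', show PP h (B _ v) = _ from Dv_fld h o hB (t n).1 v,
      pow_succ, smul_add, mul_neg_one, neg_smul, smul_neg, add_comm]

/-- the hermitian parts of the fields -/
def Cl (R : Theory D) (S : Set V) (X : Module.End ℂ D) : Prop := ∃ B B' f, ∃ c : ℂ, R.fld B ∧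
  R.fld B' ∧ P.IsAdj B B' ∧ P.In S f ∧ ∀ v, X v = c • B f v + star c • B' (bar f) v

/-- the hermitian part -/
def hp (ad : P.IsAdj B B') (hf : IsTest f) (c : ℂ) : Module.End ℂ D :=
  c • lin (B f) _ (fun v w => ad f v w hf) +
    star c • lin (B' (bar f)) _ fun v w => adj' ad _ v w (isTest_bar hf)

theorem Cl.sy (x : Cl R S X) : Sy X := fun v w => by
  obtain ⟨B, B', f, c, -, -, ad, hf, e⟩ := x
  have := adj' ad _ v w (isTest_bar hf.1)
  rw [bar_bar] at this
  rw [e, e, inner_add_left, inner_add_right, inner_smul_left, inner_smul_left, inner_smul_right,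
    inner_smul_right, ad f v w hf.1, this, add_comm]
  simp

theorem Cl.gd (h : Rep R A) (l : LB R A) (x : Cl R S X) : Sy X ∧ Gd (PP h) X := ⟨x.sy, by
  obtain ⟨B, B', f, c, a, b, ad, hf, e⟩ := x
  rw [show X = hp ad hf.1 c from LinearMap.ext e]
  exact ((gd_f h l a ad hf).smul c).add ((gd_f h l b (adj' ad) (Ap.in_bar hf)).smul _)⟩

theorem Cl.cm (x : Cl R S X) {C : Module.End ℂ D}
    (c : ∀ B f v, R.fld B → P.In S f → B f (C v) = C (B f v)) (v : D) : X (C v) = C (X v) := by
  obtain ⟨B, B', f, z, a, b, ad, hf, e⟩ := x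
  rw [e, e, map_add, map_smul, map_smul, c B f v a hf, c B' _ v b (Ap.in_bar hf)]

variable (R) in
/-- the net generated by the resolvents -/
def N0 (S : Set V) : VonNeumannAlgebra (Completion D) := vn (RR (Cl R S))

theorem st0 : ∀ g ∈ RR (Cl R S), star g ∈ RR (Cl R S) := rr_star fun _ a => a.sy

theorem push (h : Rep R A) (c : P.CntF R) {s : ℝ} {L : Ix → V} (hs : 0 < s) (hL : IsLor L) (y : V)
    (x : Cl R S X) : ∃ X', Cl R (sim s L y '' S) X' ∧
      ∀ v, X' (R.U s L y v) = R.U s L y (X v) := by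
  obtain ⟨B, B', f, z, a, b, ad, hf, e⟩ := x
  obtain ⟨C, hC, -, k⟩ := c.cov s L B hs hL a
  obtain ⟨C', hC', ac⟩ := R.adj C hC
  set τ := sim s⁻¹ (linv L) (-(sim s⁻¹ (linv L) 0 y)) with hτ
  have i1 : ∀ x, sim s L y (τ x) = x := ue_sim hs hL y
  have i2 : ∀ x, τ (sim s L y x) = x := by
    intro x
    have k := ue_sim (inv_pos.2 hs) (isLor_linv hL) (-(sim s⁻¹ (linv L) 0 y))
    rw [← hτ] at k
    rw [(congrArg (sim s L y) (k x).symm).trans (i1 _)]
    exact k x
  have hg : P.In (sim s L y '' S) fun x => f (τ x) :=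
    Ap.in_mono (Ap.in_sim (inv_pos.2 hs) (isLor_linv hL) _ hf) fun x hx => ⟨_, hx, i1 x⟩
  have m (v : D) : R.U 1 GF.one y (R.U s L 0 v) = R.U s L y v := by
    rw [h.mul _ _ _ _ _ _ _ one_pos hs isLor_one hL]
    simp only [L1.sim_one, one_mul, one_smul, zero_add, add_zero]
  have q (v : D) : C (fun x => f (τ x)) (R.U s L y v) = R.U s L y (B f v) := by
    rw [← m, R.transl C y _ _ hC hg.1, ← k _ v (Ap.test_sim one_pos isLor_one y hg.1), m]
    congr 2
    funext x
    rw [show sim 1 GF.one y (sim s L 0 x) = sim s L y x from by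
      rw [L1.sim_one, one_smul]; funext n; simp [sim, add_comm], i2]
  have q' (v : D) : C' (bar fun x => f (τ x)) (R.U s L y v) = R.U s L y (B' (bar f) v) :=
    ext_inner_left ℂ fun w => by
      rw [← ue_inv h hs hL y w, ← ac _ _ _ hg.1, q, R.U_inner _ _ _ _ _ hs hL,
        R.U_inner _ _ _ _ _ hs hL, ad f _ _ hf.1]
  refine ⟨hp ac hg.1 z, ⟨C, C', _, z, hC, hC', ac, hg, fun v => rfl⟩, fun v => ?_⟩
  show z • C _ _ + star z • C' _ _ = ueI R hs hL y _
  rw [q, q', e, map_add, map_smul, map_smul]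
  rfl

theorem lnm0 (h : Rep R A) (c : P.CntF R) (b : ∀ B, R.fld B → R.bose B) (l : LB R A) :
    LNm R A (N0 R) where
  toRep := h
  fld O B f hB hf := by
    obtain ⟨B', hB', ad⟩ := R.adj B hB
    refine ⟨B' (bar f), fun v w => ad f v w hf.1, fun Y hY v w => ?_⟩
    rw [N0, vn_comm, mem_cmt st0] at hY
    have k (z : ℂ) : Wk (hp ad hf.1 z) Y := by
      have x : Cl R O (hp ad hf.1 z) := ⟨B, B', f, z, hB, hB', ad, hf, fun v => rfl⟩
      obtain ⟨n, T, t, -⟩ := ex_res (gn h) x.sy (x.gd h l).2 0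
      exact t.wk x.sy (hY T ⟨_, n, x, t⟩)
    have e (z : ℂ) (v : D) : hp ad hf.1 z v = z • B f v + star z • B' (bar f) v := rfl
    have k1 := k 1 v w
    have k2 := k I v w
    simp only [e, Completion.coe_add, Completion.coe_smul, map_add, map_smul, inner_add_left,
      inner_add_right, inner_smul_left, inner_smul_right, RCLike.star_def, map_one, Complex.conj_I,
      map_neg, one_mul] at k1 k2
    linear_combination (1 / 2 : ℂ) * k1 - (I / 2) * k2 + (1 / 2 : ℂ) *
      (inner ℂ ((B' (bar f) w : D) : Completion D) (Y v) -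
        inner ℂ (w : Completion D) (Y (B f v : D)) - inner ℂ ((B f w : D) : Completion D) (Y v) +
        inner ℂ (w : Completion D) (Y (B' (bar f) v : D))) * Complex.I_mul_I
  mono O O' le := vn_mono st0 st0 fun _ ⟨X, n, ⟨B, B', f, z, a, b, c, d, e⟩, r⟩ =>
    ⟨X, n, ⟨B, B', f, z, a, b, c, Ap.in_mono d le, e⟩, r⟩
  cov s L y O X m hs hL := by
    obtain ⟨U, i, i', hU⟩ := L1.ex_u h hs hL y
    obtain ⟨Y, hY, e⟩ := vn_cov st0 (st0 (S := sim s L y '' O)) U (star U) i i' (by
      rintro g ⟨Z, n, x, r⟩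
      obtain ⟨Z', x', e⟩ := push h c hs hL y x
      exact ⟨U * g * star U, ⟨Z', n, x', r.conj (fun v => ⟨_, ue_inv h hs hL y v⟩)
        (fun v => (hU v).trans (ue_coe hs hL y v)) i' e⟩, by rw [mul_assoc, i', mul_one]⟩) X m
    exact ⟨Y, hY, fun z => by rw [← hU, ← hU]; exact DFunLike.congr_fun e z⟩
  loc a b' X ha hb hab := vn_loc st0 st0 (by
    rintro g ⟨Z, n, x, r⟩ g' ⟨Z', n', x', r'⟩
    refine (comm (gn h) (x.gd h l).2.bd x'.sy (x'.gd h l).2 (x.cm fun B f v hB hf => ?_) r r').symm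
    obtain ⟨B', hB', ad⟩ := R.adj B hB
    exact (x'.cm (C := lin (B f) _ fun v w => ad f v w hf.1) (fun C g v hC hg =>
      R.loc C B g f v (b C hC) hB hg.1 hf.1 (Ap.sep_wdg ha hb hg.2.2 hf.2.2)) v).symm) X

theorem tr (N : LNm R A (N0 R)) {W W' : Set V} (sp : ∀ x ∈ W, ∀ z ∈ W', mdot (x - z) (x - z) < 0)
    {X : Completion D →L[ℂ] Completion D} (x : P.Trf R O (N0 R (P.cc O)).commutant W X) :
    X ∈ (N0 R W').commutant := VonNeumannAlgebra.mem_commutant_iff.2 fun G hG => by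
  obtain ⟨s, L, y, hs, hL, le, Z, hZ, e⟩ := x
  obtain ⟨G', g, k⟩ := N.cov s⁻¹ (linv L) (-(sim s⁻¹ (linv L) 0 y)) W' G hG (inv_pos.2 hs)
    (isLor_linv hL)
  have c := VonNeumannAlgebra.mem_commutant_iff.1 hZ G' (N.mono _ _ (by
    rintro _ ⟨z, hz, rfl⟩ x hx
    have a := sp _ (le ⟨x, hx, rfl⟩) z hz
    rw [← ue_sim hs hL y z] at a
    generalize sim s⁻¹ (linv L) (-(sim s⁻¹ (linv L) 0 y)) z = t at a ⊢
    have cf := P352X.conf_sim hs hL
    rw [show sim s L y x - sim s L y t = sim s L 0 (x - t) from by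
      rw [cf.lin.map_sub]; funext n; simp [sim], cf.md] at a
    exact lt_of_not_ge fun q => absurd a (not_lt.2 (mul_nonneg cf.pos.le q))) G' g)
  obtain ⟨U, -, i', hU⟩ := L1.ex_u N.toRep hs hL y
  have i := ue_invC N.toRep hs hL y
  have j (z) : Ue R s⁻¹ (linv L) (-(sim s⁻¹ (linv L) 0 y)) (Ue R s L y z) = z := by
    have q : ∀ t, (star U : Completion D →L[ℂ] Completion D) (Ue R s L y t) = t := fun t => by
      rw [← hU]; exact DFunLike.congr_fun i' t
    exact (q _).symm.trans ((congrArg _ (i _)).trans (q z))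
  have e' : ∀ z, X (Ue R s L y z) = Ue R s L y (Z z) := e
  ext z
  obtain ⟨z, rfl⟩ : ∃ t, Ue R s L y t = z := ⟨_, i z⟩
  show G (X _) = X (G _)
  rw [← i (G (X _)), ← i (G (Ue R s L y z)), ← k, ← k, e', e', j, j]
  exact congrArg _ (DFunLike.congr_fun c z)

/-- **energy bounds give a local algebra** -/
theorem lc1 (h : P.EnB Q R A) (n : O ∈ nhds 0) (b : Bornology.IsBounded O) :
    ∃ M, P.Lc1 Q A O M := by
  have r : Rep R A := Br.rep.1 ⟨by rw [← h.sub.U]; exact h.mul, h.add, by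
    unfold P.Gnr; rw [← h.sub.U]; exact h.der⟩
  have N := lnm0 r h.cnt h.bose h.lin
  have d := (H268.s0 (P352H.tfg r (Cf.cfb_all R A _ N h.cnt).1) (P352L.StA.lnm N)).vnet.dual
  have u : P.Trf Q = P.Trf R := by
    funext O M W X
    unfold P.Trf P.Ue
    rw [h.sub.U]
  refine ⟨(N0 R (P.cc O)).commutant, h.toRep, ⟨n, b⟩, fun B f hB hf => ?_,
    fun a c X Y ha hc hac x y => ?_⟩
  · obtain ⟨B', hB', ad⟩ := Q.adj B hB
    obtain ⟨k, e⟩ := h.pol B f hB (Ap.in_univ' hf)
    refine ⟨B' (bar f), fun v w => ad f v w hf.1, fun Y hY => ?_⟩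
    rw [VonNeumannAlgebra.commutant_commutant] at hY
    exact aff (C := lin (B f) _ fun v w => ad f v w hf.1) (gn r) (fun _ x => x.gd r h.lin) (bk r e)
      (fun v w => ad f v w hf.1) (fun Z x => x.cm fun C g v hC hg =>
        Q.loc C B g f v (h.sub.bose C (h.bose C hC)) hB hg.1 hf.1
          (Ap.sep_symm fun x hx y hy => hg.2.2 hy x (hf.2.2 hx))) hY
  · rw [u] at x y
    exact VonNeumannAlgebra.mem_commutant_iff.1 (tr N (fun _ p _ q => Ap.wdg_opp ha hc p q) y) X
      ((d a c X ha hc hac).2 (tr N (fun _ p _ q => Ap.wdg_opp hc ha p q) x))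

end Vale.Agent.P352R.L22
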