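import Vale.Agent.P352R.Cf.WitB2
import Vale.Agent.P352R.Cf.WitG
import Vale.Agent.P352R.L22.Pub
import Vale.Agent.P352R.Br

/-!
# P352R, block L22: the free field satisfies the energy bounds (helper22)
-/

set_option autoImplicit false
set_option linter.all false

namespace Vale.Agent.P352R.L22

open P352 GF H246 H15 BW P352X P352W P352R.Cf
open P352.ND (PCh)
open P352L.StA (hull sp_of)
open UniformSpace (Completion)

theorem eb1 {D : Type*} [NormedAddCommGroup D] [InnerProductSpace ℂ D] {Q : Theory D}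
    {A : (V → V) → D → D} (h : Rep Q A) (l : Egr.Lb Q) (B f) (hB : Q.fld B)
    (hf : P.In Set.univ f) : P.Eb A 1 (B f) := by
  obtain ⟨C, c⟩ := l B f hB hf.1
  refine ⟨|C| * 2, fun v => ?_⟩
  have d (v : D) := h.der (fun _ => 1) (fun _ => GF.one) (fun t => bas o t) (fun _ => bas o 1) v
    rfl rfl (by funext n; simp [bas]) (fun _ => ⟨one_pos, isLor_one⟩) fun n x => by
      simp only [sim, bas]
      split_ifs
      · exact (hasDerivAt_id _).add_const _
      · exact hasDerivAt_const _ _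
  have a := (d v).inner ℂ (d v)
  have z : bas o 0 = 0 := by funext n; simp [bas]
  simp only [Q.U_inner _ _ _ _ _ one_pos isLor_one, z, H755.Uone] at a
  have a := congrArg Complex.re (a.unique (hasDerivAt_const _ _))
  refine (c v _ (d v)).trans ?_
  show _ ≤ _ * ‖v - Complex.I • A _ v‖
  generalize Complex.I • A _ v = y at a ⊢
  rw [← inner_conj_symm y v, Complex.add_re, Complex.conj_re, Complex.zero_re] at a
  have n := norm_sub_sq (𝕜 := ℂ) v y
  rw [show RCLike.re (inner ℂ v y : ℂ) = 0 from by show (inner ℂ v y : ℂ).re = 0; linarith] at n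
  have p : ‖v‖ ≤ ‖v - y‖ :=
    (abs_le_of_sq_le_sq' (by nlinarith [sq_nonneg ‖y‖]) (norm_nonneg _)).2
  have q : ‖y‖ ≤ ‖v - y‖ :=
    (abs_le_of_sq_le_sq' (by nlinarith [sq_nonneg ‖v‖]) (norm_nonneg _)).2
  rw [mul_assoc]
  exact mul_le_mul (le_abs_self C) (by linarith) (by positivity) (abs_nonneg C)

/-- **the witness**, with energy bounds -/
theorem wit : ∃ (D : Type) (_ : NormedAddCommGroup D)
    (_ : InnerProductSpace ℂ D) (Q : Theory D) (T : Ix → Ix → Fld D) (A : (V → V) → D → D)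
    (N : Set V → VonNeumannAlgebra (Completion D)), (Stress0 Q T ∧ PCh Q T A ∧
      (MfAll Q ∧ FSL Q) ∧ P.CntF Q ∧ LNm Q A N ∧ L.UVac Q ∧
      (∃ φ, Q.IsScalar φ 1 ∧ ∃ f, IsTest f ∧ φ f Q.vac ≠ 0) ∧
      ¬FiniteDimensional ℂ (Completion D) ∧ ∃ f, IsTest f ∧ tr T f Q.vac ≠ 0) ∧
      (∀ w, P352NA.Cyc Q w) ∧ (∀ B, Q.fld B → Q.bose B) ∧ P.EnB Q Q A := by
  have h := free
  obtain ⟨A, hA⟩ := h.rep
  obtain ⟨N, hN⟩ := Net.lnm hA h.scalar h.raw h.fil
  obtain ⟨v, n, p⟩ := h.perp hA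
  have s := P352H.str (h.stress hA)
  have r := (P352L.StA.lnm hN).toRep
  have l := eb1 r (Wg.lb (Q := h.th) (Eb.eb fun _ _ => Fk.Cov.wd_gm one_pos isLor_one))
  exact ⟨_, _, _, hull h.th, _, A, N, ⟨⟨s.bose, s.symm, s.herm,
    fun m n L a f v => s.cov m n 1 L a f v one_pos, s.conserved, s.charge⟩,
    P352H.pch hA h.fT (h.pch hA), ⟨P352H.mfa h.mf, P352H.fsl h.fsl⟩, Wb.free_cntF h,
    P352L.StA.lnm hN, h.uvac, ⟨_, ⟨sp_of h.fp, h.scalar.2⟩, h.nzp⟩, nz_dim hA h.uvac n p, h.nz⟩,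
    fun w S a b => h.gen S a (fun B f v k => b B f v (sp_of k)) w, fun _ b => b,
    Br.rep.2 r, ⟨rfl, rfl, fun _ a => a, fun _ a => a⟩, Wb.free_cntF h, fun _ b => b, l,
    fun B f a b => ⟨1, l B f a b⟩⟩

end Vale.Agent.P352R.L22
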